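/-
P235-ST (helper834).  Connected plane graphs (and connected graphs with a map of bounded genus) are
closed under gluing two graphs along an edge, in the form of helper626.
-/
import Vale.Agent.P235.ST.H626.Blow
import Vale.Agent.P235.ST.H421.Surf
import Vale.Agent.P235.H105.Hop

set_option linter.all false
set_option autoImplicit false

namespace Vale.Agent.P235.ST.H834

open Vale.Agent.P235 Vale.Agent.P235.ST.H626

section

variable {V W : Type} {G : SimpleGraph V} {H : SimpleGraph W} {a b : V} {s t : W}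

theorem adj_left {u v : V} (h : G.Adj u v) :
    (GG G H a b s t).Adj (Sum.inl u) (Sum.inl v) := Or.inl ⟨u, v, h, rfl, rfl⟩

theorem adj_right (hab : a ≠ b) (hst : s ≠ t) {u v : W} (h : H.Adj u v) :
    (GG G H a b s t).Adj (i2 a b s t u) (i2 a b s t v) :=
  Or.inr ⟨u, v, h, rfl, rfl, fun e => h.ne (i2_inj hab hst e)⟩

theorem i2_eq_inl {u : V} {y : W} (h : Sum.inl u = i2 a b s t y) :
    (u = a ∧ y = s) ∨ (u = b ∧ y = t) := by
  by_cases hy : y ≠ s ∧ y ≠ t
  · rw [i2_r hy] at h
    exact absurd h (by simp)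
  · by_cases h1 : y = s
    · subst h1
      rw [i2_s] at h
      exact Or.inl ⟨Sum.inl.inj h, rfl⟩
    · have h2 : y = t := by
        by_contra h2
        exact hy ⟨h1, h2⟩
      have h3 : i2 a b s t y = Sum.inl b := by
        unfold i2
        rw [dif_neg hy, if_neg h1]
      rw [h3] at h
      exact Or.inr ⟨Sum.inl.inj h, h2⟩

/-- the glued graph of helper626 is glued in the sense of helper421 -/
theorem glued_GG (hab : G.Adj a b) (hst : H.Adj s t) :
    H421.Glued (GG G H a b s t) G H Sum.inl (i2 a b s t) a b s t where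
  injA := Sum.inl_injective
  injB := i2_inj hab.ne hst.ne
  adjA := fun _ _ h => adj_left h
  adjB := fun _ _ h => adj_right hab.ne hst.ne h
  adj := fun x y h => by
    rcases h with ⟨u, v, h, h1, h2⟩ | ⟨u, v, h, h1, h2, _⟩
    · exact Or.inl ⟨u, v, h, h1.symm, h2.symm⟩
    · exact Or.inr ⟨u, v, h, h1.symm, h2.symm⟩
  cov := fun v => by
    rcases v with v | v
    · exact Or.inl ⟨v, rfl⟩
    · exact Or.inr ⟨v.1, i2_r v.2⟩
  inter := fun _ _ h => i2_eq_inl h
  hs := i2_s.symm
  ht := (i2_t hst.ne).symm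
  stA := hab
  stB := hst

theorem conn_GG (hab : G.Adj a b) (hst : H.Adj s t) (hG : G.Connected) (hH : H.Connected) :
    (GG G H a b s t).Connected := by
  have h1 : ∀ u : V, (GG G H a b s t).Reachable (Sum.inl a) (Sum.inl u) := fun u =>
    (hG.preconnected a u).map ⟨Sum.inl, fun h => adj_left h⟩
  have h2 : ∀ y : W, (GG G H a b s t).Reachable (Sum.inl a) (i2 a b s t y) := fun y => by
    have h3 := (hH.preconnected s y).map
      (⟨i2 a b s t, fun h => adj_right hab.ne hst.ne h⟩ : H →g GG G H a b s t)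
    have h4 : (⟨i2 a b s t, fun h => adj_right hab.ne hst.ne h⟩ : H →g GG G H a b s t) s =
      Sum.inl a := i2_s
    rw [h4] at h3
    exact h3
  have h5 : ∀ v, (GG G H a b s t).Reachable (Sum.inl a) v := fun v => by
    rcases v with v | v
    · exact h1 v
    · rw [← i2_r v.2]
      exact h2 v.1
  have : Nonempty (GV V s t) := ⟨Sum.inl a⟩
  exact ⟨fun x y => (h5 x).symm.trans (h5 y)⟩

/-- the genera add under gluing along an edge -/
theorem surf_GG [Finite V] [Finite W] (hab : G.Adj a b) (hst : H.Adj s t) {g h : ℕ}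
    {σ : Equiv.Perm G.Dart} {τ : Equiv.Perm H.Dart} (hσ : SurfMap g G σ) (hτ : SurfMap h H τ) :
    ∃ ρ : Equiv.Perm (GG G H a b s t).Dart, SurfMap (g + h) (GG G H a b s t) ρ :=
  H421.surf_glue (glued_GG hab hst) hσ hτ

theorem surf_of_plane {σ : Equiv.Perm G.Dart} (hσ : PlaneMap G σ) : SurfMap 0 G σ :=
  ⟨hσ.fst, hσ.cyc, by have := hσ.euler; omega⟩

end

/-- connected plane graphs -/
def Pl (V : Type) (G : SimpleGraph V) : Prop :=
  G.Connected ∧ ∃ σ : Equiv.Perm G.Dart, PlaneMap G σ

/-- **Connected plane graphs are closed under gluing along edges.** -/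
theorem glueClosed_plane : GlueClosed Pl := by
  intro V W _ _ G H a b s t hab hst hG hH
  obtain ⟨hG, σ, hσ⟩ := hG
  obtain ⟨hH, τ, hτ⟩ := hH
  have hc := conn_GG hab hst hG hH
  obtain ⟨ρ, hρ⟩ := surf_GG hab hst (surf_of_plane hσ) (surf_of_plane hτ)
  have : Finite (GV V s t) := inferInstance
  exact ⟨hc, ρ, SurfMap.plane hc hρ⟩

end Vale.Agent.P235.ST.H834
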