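import Vale.Agent.P235.H105.Hop
import Mathlib.GroupTheory.Perm.Cycle.Basic
import Mathlib.Combinatorics.SimpleGraph.DegreeSum

set_option linter.all false

/-! Gluing two plane graphs along an edge gives a plane graph. -/

namespace Vale.Agent.P235.ST.H834

open Set

/-- constant on cycles -/
theorem const_cycle {α β : Type} {f : Equiv.Perm α} {c : α → β} (h : ∀ x, c (f x) = c x)
    {x y : α} (hxy : f.SameCycle x y) : c x = c y := by
  have hs : ∀ (n : ℤ) (d : α), c ((f ^ n) d) = c d := by
    intro n
    induction n using Int.induction_on with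
    | zero => intro d; rfl
    | succ n ih =>
      intro d
      rw [zpow_add_one, Equiv.Perm.mul_apply, ih, h]
    | pred n ih =>
      intro d
      have h3 := h (f⁻¹ d)
      rw [show f (f⁻¹ d) = d from Equiv.apply_symm_apply _ _] at h3
      rw [zpow_sub_one, Equiv.Perm.mul_apply, ih, ← h3]
  obtain ⟨n, hn⟩ := hxy
  rw [← hn, hs]

/-- relations containing all steps contain all cycles -/
theorem rel_cycle {α : Type} {f : Equiv.Perm α} {S : α → α → Prop} (hr : ∀ x, S x x)
    (hs : ∀ x y, S x y → S y x) (ht : ∀ x y z, S x y → S y z → S x z) (h : ∀ x, S x (f x))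
    {x y : α} (hxy : f.SameCycle x y) : S x y := by
  have hn : ∀ (n : ℤ) (d : α), S d ((f ^ n) d) := by
    intro n
    induction n using Int.induction_on with
    | zero => intro d; exact hr d
    | succ n ih =>
      intro d
      rw [zpow_add_one, Equiv.Perm.mul_apply]
      exact ht _ _ _ (h d) (ih _)
    | pred n ih =>
      intro d
      have h3 := h (f⁻¹ d)
      rw [show f (f⁻¹ d) = d from Equiv.apply_symm_apply _ _] at h3
      rw [zpow_sub_one, Equiv.Perm.mul_apply]
      exact ht _ _ _ (hs _ _ h3) (ih _)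
  obtain ⟨n, rfl⟩ := hxy
  exact hn n x

/-- a cycle without one link is connected -/
theorem missing {α : Type} [Finite α] {f : Equiv.Perm α} {S : α → α → Prop} (hr : ∀ x, S x x)
    (hs : ∀ x y, S x y → S y x) (ht : ∀ x y z, S x y → S y z → S x z) {x0 : α}
    (h : ∀ x, f.SameCycle x0 x → x ≠ x0 → S x (f x)) : S x0 (f x0) := by
  classical
  have hex : ∃ n : ℕ, 0 < n ∧ (f ^ n) x0 = x0 := by
    refine ⟨orderOf f, orderOf_pos f, ?_⟩
    rw [pow_orderOf_eq_one]
    rfl
  set n := Nat.find hex with hn
  obtain ⟨hn0, hn1⟩ : 0 < n ∧ (f ^ n) x0 = x0 := Nat.find_spec hex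
  have key : ∀ k : ℕ, k + 1 ≤ n → S (f x0) ((f ^ (k + 1)) x0) := by
    intro k
    induction k with
    | zero => intro _; rw [zero_add, pow_one]; exact hr _
    | succ k ih =>
      intro hk
      refine ht _ _ _ (ih (by omega)) ?_
      rw [pow_succ' f (k + 1), Equiv.Perm.mul_apply]
      refine h _ ⟨((k + 1 : ℕ) : ℤ), by rw [zpow_natCast]⟩ ?_
      intro h1
      exact Nat.find_min hex (m := k + 1) (by omega) ⟨by omega, h1⟩
  obtain ⟨m, hm⟩ : ∃ m, n = m + 1 := ⟨n - 1, by omega⟩
  have h2 := key m (by omega)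
  rw [← hm, hn1] at h2
  exact hs _ _ h2

variable {V : Type} {G : SimpleGraph V}

/-- the dart lies in `A` -/
def pin (G : SimpleGraph V) (A : Set V) (d : G.Dart) : Prop := d.fst ∈ A ∧ d.snd ∈ A

theorem pin_symm {A : Set V} {d : G.Dart} (h : pin G A d) : pin G A d.symm := ⟨h.2, h.1⟩

/-- the darts of an induced subgraph -/
def eD (G : SimpleGraph V) (A : Set V) : (G.induce A).Dart ≃ {d : G.Dart // pin G A d} where
  toFun d := ⟨⟨(d.fst.1, d.snd.1), d.adj⟩, d.fst.2, d.snd.2⟩
  invFun d := ⟨(⟨d.1.fst, d.2.1⟩, ⟨d.1.snd, d.2.2⟩), d.1.adj⟩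
  left_inv d := rfl
  right_inv d := rfl

theorem card_dart_nat {V : Type} [Finite V] (G : SimpleGraph V) :
    Nat.card G.Dart = 2 * Nat.card G.edgeSet := by
  classical
  have := Fintype.ofFinite V
  rw [Nat.card_eq_fintype_card, Nat.card_eq_fintype_card,
    SimpleGraph.dart_card_eq_twice_card_edges, SimpleGraph.edgeFinset_card]

theorem finite_dart {V : Type} [Finite V] (G : SimpleGraph V) : Finite G.Dart :=
  Finite.of_injective (fun d : G.Dart => d.toProd) fun d d' h => SimpleGraph.Dart.ext _ _ h

/-- **One piece**: the rotation of an induced subgraph, seen on all darts. -/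
theorem piece [Finite V] {A : Set V} {σ : Equiv.Perm (G.induce A).Dart}
    (hσ : PlaneMap (G.induce A) σ) (x0 : {d : G.Dart // pin G A d}) :
    ∃ (f : Equiv.Perm G.Dart) (F : Type) (_ : Finite F) (L : G.Dart → F),
      (∀ d, (f d).fst = d.fst) ∧ (∀ d, ¬ pin G A d → f d = d) ∧
      (∀ d, pin G A d → pin G A (f d)) ∧
      (∀ d d', pin G A d → pin G A d' → d.fst = d'.fst → f.SameCycle d d') ∧
      (∀ d, pin G A d → L (f d.symm) = L d) ∧ (∀ q : F, ∃ d, pin G A d ∧ L d = q) ∧
      2 * A.ncard + 2 * Nat.card F = {d | pin G A d}.ncard + 4 := by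
  classical
  have := finite_dart G
  have := finite_dart (G.induce A)
  set e := eD G A with he
  set f : Equiv.Perm G.Dart := σ.extendDomain e with hf
  have h1 : ∀ a, f (e a) = e (σ a) := fun a => Equiv.Perm.extendDomain_apply_image σ e a
  have h2 : ∀ d, ¬ pin G A d → f d = d := fun d h =>
    Equiv.Perm.extendDomain_apply_not_subtype σ e h
  have h0 : ∀ d, pin G A d → ∃ a, d = e a := fun d h =>
    ⟨e.symm ⟨d, h⟩, by rw [Equiv.apply_symm_apply]⟩
  have hpin : ∀ a, pin G A (e a : G.Dart) := fun a => (e a).2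
  have hfst : ∀ a, ((e a : G.Dart)).fst = (a.fst : V) := fun a => rfl
  set F := Quotient (Equiv.Perm.SameCycle.setoid (faceNext σ)) with hF
  refine ⟨f, F, inferInstance,
    fun d => if h : pin G A d then Quotient.mk _ (e.symm ⟨d, h⟩) else Quotient.mk _ (e.symm x0),
    ?_, h2, ?_, ?_, ?_, ?_, ?_⟩
  · intro d
    by_cases h : pin G A d
    · obtain ⟨a, rfl⟩ := h0 d h
      rw [h1, hfst, hfst, hσ.fst]
    · rw [h2 d h]
  · intro d h
    obtain ⟨a, rfl⟩ := h0 d h
    rw [h1]
    exact hpin _
  · intro d d' h h' hdd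
    obtain ⟨a, rfl⟩ := h0 d h
    obtain ⟨a', rfl⟩ := h0 d' h'
    refine Equiv.Perm.SameCycle.extendDomain (hσ.cyc a a' ?_)
    exact Subtype.ext (by rw [← hfst, ← hfst]; exact hdd)
  · intro d h
    obtain ⟨a, rfl⟩ := h0 d h
    have h3 : ((e a : G.Dart)).symm = e a.symm := rfl
    have h4 : f ((e a : G.Dart)).symm = e (faceNext σ a) := by
      rw [h3, h1]
      rfl
    rw [h4]
    have h5 : ∀ b, (if h : pin G A (e b : G.Dart) then
        (Quotient.mk _ (e.symm ⟨(e b : G.Dart), h⟩) : F) else Quotient.mk _ (e.symm x0)) =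
        Quotient.mk _ b := by
      intro b
      rw [dif_pos (hpin b)]
      have : (⟨(e b : G.Dart), hpin b⟩ : {d : G.Dart // pin G A d}) = e b := rfl
      rw [this, Equiv.symm_apply_apply]
    show (if h : pin G A (e (faceNext σ a) : G.Dart) then _ else _) = _
    rw [h5]
    show _ = (if h : pin G A (e a : G.Dart) then _ else _)
    rw [h5]
    exact Quotient.sound ⟨-1, by simp⟩
  · intro q
    induction q using Quotient.inductionOn with
    | h b =>
      refine ⟨e b, hpin b, ?_⟩
      show (if h : pin G A (e b : G.Dart) then _ else _) = _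
      rw [dif_pos (hpin b)]
      have : (⟨(e b : G.Dart), hpin b⟩ : {d : G.Dart // pin G A d}) = e b := rfl
      rw [this, Equiv.symm_apply_apply]
  · have h3 : A.ncard + Nat.card F = Nat.card (G.induce A).edgeSet + 2 := hσ.euler
    have h4 := card_dart_nat (G.induce A)
    have h5 : Nat.card (G.induce A).Dart = {d | pin G A d}.ncard := by
      rw [Nat.card_congr e]
      rfl
    rw [h5] at h4
    omega

/-- **Gluing along an edge preserves planarity.** -/
theorem plane_glue [Finite V] (hc : G.Connected) {A B : Set V} {s t : V}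
    (hst : G.Adj s t) (hU : A ∪ B = Set.univ) (hI : A ∩ B = {s, t})
    (hno : ∀ a b, a ∉ B → b ∉ A → ¬ G.Adj a b)
    (hA : ∃ σ : Equiv.Perm (G.induce A).Dart, PlaneMap (G.induce A) σ)
    (hB : ∃ σ : Equiv.Perm (G.induce B).Dart, PlaneMap (G.induce B) σ) :
    ∃ σ : Equiv.Perm G.Dart, PlaneMap G σ := by
  classical
  have hfin := finite_dart G
  obtain ⟨σA, hσA⟩ := hA
  obtain ⟨σB, hσB⟩ := hB
  have hsAB : s ∈ A ∩ B := by rw [hI]; exact Or.inl rfl
  have htAB : t ∈ A ∩ B := by rw [hI]; exact Or.inr rfl
  have hne : s ≠ t := hst.ne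
  set x : G.Dart := ⟨(s, t), hst⟩ with hx
  set y : G.Dart := x.symm with hy
  have hys : y.symm = x := SimpleGraph.Dart.symm_symm x
  have hxf : x.fst = s := rfl
  have hyf : y.fst = t := rfl
  have hxy : x ≠ y := fun h => hne (by rw [← hxf, ← hyf, h])
  have xA : pin G A x := ⟨hsAB.1, htAB.1⟩
  have yA : pin G A y := ⟨htAB.1, hsAB.1⟩
  have xB : pin G B x := ⟨hsAB.2, htAB.2⟩
  have yB : pin G B y := ⟨htAB.2, hsAB.2⟩
  have hmem : ∀ u, u ∈ A ∨ u ∈ B := fun u => by
    have : u ∈ A ∪ B := by rw [hU]; trivial
    exact this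
  have hAB : ∀ d : G.Dart, pin G A d ∨ pin G B d := by
    intro d
    by_cases h1 : d.fst ∈ A
    · by_cases h2 : d.snd ∈ A
      · exact Or.inl ⟨h1, h2⟩
      · by_cases h3 : d.fst ∈ B
        · exact Or.inr ⟨h3, (hmem _).resolve_left h2⟩
        · exact absurd d.adj (hno _ _ h3 h2)
    · have h3 := (hmem d.fst).resolve_left h1
      by_cases h2 : d.snd ∈ B
      · exact Or.inr ⟨h3, h2⟩
      · exact absurd d.adj.symm (hno _ _ h2 h1)
  have hboth : ∀ d : G.Dart, pin G A d → pin G B d → d = x ∨ d = y := by
    intro d h h'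
    have h1 : d.fst ∈ ({s, t} : Set V) := by rw [← hI]; exact ⟨h.1, h'.1⟩
    have h2 : d.snd ∈ ({s, t} : Set V) := by rw [← hI]; exact ⟨h.2, h'.2⟩
    have h3 : d.fst ≠ d.snd := d.adj.ne
    rcases h1 with h1 | h1 <;> rcases h2 with h2 | h2
    · exact absurd (h1.trans h2.symm) h3
    · left
      exact SimpleGraph.Dart.ext _ _ (Prod.ext h1 h2)
    · right
      exact SimpleGraph.Dart.ext _ _ (Prod.ext h1 h2)
    · exact absurd (h1.trans h2.symm) h3
  obtain ⟨f, FA, hFA, LA, f1, f2, f3, f4, f5, f6, f7⟩ := piece hσA ⟨x, xA⟩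
  obtain ⟨g, FB, hFB, LB, g1, g2, g3, g4, g5, g6, g7⟩ := piece hσB ⟨x, xB⟩
  -- the two points of A ∩ B
  have nB : ∀ d, pin G A d → d ≠ x → d ≠ y → ¬ pin G B d := fun d h h1 h2 h3 =>
    (hboth d h h3).elim h1 h2
  have nA : ∀ d, pin G B d → d ≠ x → d ≠ y → ¬ pin G A d := fun d h h1 h2 h3 =>
    (hboth d h3 h).elim h1 h2
  have sy : ∀ d : G.Dart, d.fst = s → d ≠ y := fun d h h1 =>
    hne (by rw [← h, h1]; exact hyf)
  have tx : ∀ d : G.Dart, d.fst ≠ s → d ≠ x := fun d h h1 => h (by rw [h1])
  -- the rotation
  have hinj : Function.Injective fun d : G.Dart => if d.fst = s then g (f d) else f (g d) := by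
    intro d d' h
    have h1 : ∀ d : G.Dart, (if d.fst = s then g (f d) else f (g d)).fst = d.fst := by
      intro d
      split_ifs with h
      · rw [g1, f1]
      · rw [f1, g1]
    have h2 : d.fst = d'.fst := by
      rw [← h1 d, ← h1 d']
      exact congrArg (fun z : G.Dart => z.fst) h
    by_cases h3 : d.fst = s
    · have h4 : d'.fst = s := by rw [← h2, h3]
      have h5 : g (f d) = g (f d') := by
        have := h
        simp only [if_pos h3, if_pos h4] at this
        exact this
      exact f.injective (g.injective h5)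
    · have h4 : d'.fst ≠ s := by rw [← h2]; exact h3
      have h5 : f (g d) = f (g d') := by
        have := h
        simp only [if_neg h3, if_neg h4] at this
        exact this
      exact g.injective (f.injective h5)
  set σ : Equiv.Perm G.Dart := Equiv.ofBijective _ (Finite.injective_iff_bijective.1 hinj) with hσ
  have σs : ∀ d : G.Dart, d.fst = s → σ d = g (f d) := fun d h => if_pos h
  have σn : ∀ d : G.Dart, d.fst ≠ s → σ d = f (g d) := fun d h => if_neg h
  refine ⟨σ, SurfMap.plane hc ⟨?_, ?_, ?_⟩⟩
  · intro d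
    by_cases h : d.fst = s
    · rw [σs d h, g1, f1]
    · rw [σn d h, f1, g1]
  · -- cyclic at every vertex
    have Sr : ∀ z, σ.SameCycle z z := fun z => Equiv.Perm.SameCycle.refl _ _
    have Ss : ∀ z z', σ.SameCycle z z' → σ.SameCycle z' z := fun z z' h => h.symm
    have St : ∀ z z' z'', σ.SameCycle z z' → σ.SameCycle z' z'' → σ.SameCycle z z'' :=
      fun z z' z'' h h' => h.trans h'
    have step : ∀ z, σ.SameCycle z (σ z) := fun z => ⟨1, by rw [zpow_one]⟩
    have fpin : ∀ {d d'}, f.SameCycle d d' → (pin G A d ↔ pin G A d') := by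
      intro d d' h
      have := const_cycle (f := f) (c := fun d => pin G A d) (fun z => propext
        ⟨fun h1 => by
          by_contra h2
          rw [f2 z h2] at h1
          exact h2 h1, f3 z⟩) h
      rw [eq_iff_iff] at this
      exact this
    have gpin : ∀ {d d'}, g.SameCycle d d' → (pin G B d ↔ pin G B d') := by
      intro d d' h
      have := const_cycle (f := g) (c := fun d => pin G B d) (fun z => propext
        ⟨fun h1 => by
          by_contra h2
          rw [g2 z h2] at h1
          exact h2 h1, g3 z⟩) h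
      rw [eq_iff_iff] at this
      exact this
    have ffst : ∀ {d d'}, f.SameCycle d d' → d.fst = d'.fst := fun h =>
      const_cycle (f := f) (c := fun d : G.Dart => d.fst) f1 h
    have gfst : ∀ {d d'}, g.SameCycle d d' → d.fst = d'.fst := fun h =>
      const_cycle (f := g) (c := fun d : G.Dart => d.fst) g1 h
    -- f at t
    have a1 : ∀ d, pin G A d → d.fst = t → d ≠ y → σ.SameCycle d (f d) := by
      intro d h h1 h2
      have h3 : d.fst ≠ s := by rw [h1]; exact hne.symm
      have h4 := g2 d (nB d h (tx d h3) h2)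
      have h5 := step d
      rwa [σn d h3, h4] at h5
    have a1' : σ.SameCycle y (f y) := missing Sr Ss St fun d h h1 =>
      a1 d ((fpin h).1 yA) ((ffst h).symm.trans hyf) h1
    -- g at s
    have a2 : ∀ d, pin G B d → d.fst = s → d ≠ x → σ.SameCycle d (g d) := by
      intro d h h1 h2
      have h4 := f2 d (nA d h h2 (sy d h1))
      have h5 := step d
      rwa [σs d h1, h4] at h5
    have a2' : σ.SameCycle x (g x) := missing Sr Ss St fun d h h1 =>
      a2 d ((gpin h).1 xB) ((gfst h).symm.trans hxf) h1
    -- f at s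
    have a3 : ∀ d, pin G A d → d.fst = s → f d ≠ x → σ.SameCycle d (f d) := by
      intro d h h1 h2
      have h4 := g2 (f d) (nB _ (f3 d h) h2 (sy _ (by rw [f1, h1])))
      have h5 := step d
      rwa [σs d h1, h4] at h5
    have ex : f (f⁻¹ x) = x := Equiv.apply_symm_apply _ _
    have ex1 : f.SameCycle (f⁻¹ x) x := ⟨1, by rw [zpow_one, ex]⟩
    have a3' : σ.SameCycle (f⁻¹ x) (f (f⁻¹ x)) := missing Sr Ss St fun d h h1 => by
      have h2 : f.SameCycle x d := ex1.symm.trans h
      exact a3 d ((fpin h2).1 xA) ((ffst h2).symm.trans hxf) fun h3 => h1 (by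
        rw [← h3]; exact (Equiv.symm_apply_apply _ _).symm)
    -- g at t
    have a4 : ∀ d, pin G B d → d.fst = t → g d ≠ y → σ.SameCycle d (g d) := by
      intro d h h1 h2
      have h3 : d.fst ≠ s := by rw [h1]; exact hne.symm
      have h4 := f2 (g d) (nA _ (g3 d h) (tx _ (by rw [g1]; exact h3)) h2)
      have h5 := step d
      rwa [σn d h3, h4] at h5
    have ey : g (g⁻¹ y) = y := Equiv.apply_symm_apply _ _
    have ey1 : g.SameCycle (g⁻¹ y) y := ⟨1, by rw [zpow_one, ey]⟩
    have a4' : σ.SameCycle (g⁻¹ y) (g (g⁻¹ y)) := missing Sr Ss St fun d h h1 => by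
      have h2 : g.SameCycle y d := ey1.symm.trans h
      exact a4 d ((gpin h2).1 yB) ((gfst h2).symm.trans hyf) fun h3 => h1 (by
        rw [← h3]; exact (Equiv.symm_apply_apply _ _).symm)
    have HA : ∀ d, σ.SameCycle d (f d) := by
      intro d
      by_cases h : pin G A d
      · by_cases h1 : d.fst = s
        · by_cases h2 : f d = x
          · have h3 : d = f⁻¹ x := by rw [← h2]; exact (Equiv.symm_apply_apply _ _).symm
            rw [h3]
            exact a3'
          · exact a3 d h h1 h2
        · by_cases h2 : d.fst = t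
          · by_cases h3 : d = y
            · rw [h3]; exact a1'
            · exact a1 d h h2 h3
          · have h3 : ¬ pin G B d := fun h4 => by
              have : d.fst ∈ ({s, t} : Set V) := by rw [← hI]; exact ⟨h.1, h4.1⟩
              rcases this with h5 | h5
              · exact h1 h5
              · exact h2 h5
            have h5 := step d
            rwa [σn d h1, g2 d h3] at h5
      · rw [f2 d h]
    have HB : ∀ d, σ.SameCycle d (g d) := by
      intro d
      by_cases h : pin G B d
      · by_cases h1 : d.fst = s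
        · by_cases h3 : d = x
          · rw [h3]; exact a2'
          · exact a2 d h h1 h3
        · by_cases h2 : d.fst = t
          · by_cases h3 : g d = y
            · have h4 : d = g⁻¹ y := by rw [← h3]; exact (Equiv.symm_apply_apply _ _).symm
              rw [h4]
              exact a4'
            · exact a4 d h h2 h3
          · have h3 : ¬ pin G A (g d) := fun h4 => by
              have : d.fst ∈ ({s, t} : Set V) := by
                rw [← hI]
                refine ⟨?_, h.1⟩
                rw [← g1 d]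
                exact h4.1
              rcases this with h5 | h5
              · exact h1 h5
              · exact h2 h5
            have h5 := step d
            rwa [σn d h1, f2 _ h3] at h5
      · rw [g2 d h]
    have CA : ∀ d d', pin G A d → pin G A d' → d.fst = d'.fst → σ.SameCycle d d' :=
      fun d d' h h' hd => rel_cycle Sr Ss St HA (f4 d d' h h' hd)
    have CB : ∀ d d', pin G B d → pin G B d' → d.fst = d'.fst → σ.SameCycle d d' :=
      fun d d' h h' hd => rel_cycle Sr Ss St HB (g4 d d' h h' hd)
    have mix : ∀ d d', pin G A d → pin G B d' → d.fst = d'.fst → σ.SameCycle d d' := by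
      intro d d' h h' hd
      have : d.fst ∈ ({s, t} : Set V) := by
        rw [← hI]
        refine ⟨h.1, ?_⟩
        rw [hd]
        exact h'.1
      rcases this with h5 | h5
      · exact (CA d x h xA h5).trans (CB x d' xB h' (hd ▸ h5).symm)
      · exact (CA d y h yA h5).trans (CB y d' yB h' (hd ▸ h5).symm)
    intro d d' hd
    rcases hAB d with h | h <;> rcases hAB d' with h' | h'
    · exact CA d d' h h' hd
    · exact mix d d' h h' hd
    · exact (mix d' d h' h hd.symm).symm
    · exact CB d d' h h' hd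
  · -- Euler's formula
    have la : LA (f x) = LA y := by have := f5 y yA; rwa [hys] at this
    have la' : LA (f y) = LA x := f5 x xA
    have lb : LB (g x) = LB y := by have := g5 y yB; rwa [hys] at this
    have lb' : LB (g y) = LB x := g5 x xB
    set c0 : G.Dart → FA ⊕ FB := fun d => if pin G A d ∧ d ≠ x then .inl (LA d) else .inr (LB d)
      with hc0
    set ρ : FA ⊕ FB → FA ⊕ {q : FB // q ≠ LB y} := fun z => match z with
      | .inl a => .inl a
      | .inr b => if h : b = LB y then .inl (LA x) else .inr ⟨b, h⟩ with hρ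
    have ρl : ∀ a, ρ (.inl a) = .inl a := fun a => rfl
    have ρy : ρ (.inr (LB y)) = .inl (LA x) := dif_pos rfl
    have cA : ∀ d, pin G A d → d ≠ x → c0 d = .inl (LA d) := fun d h h' => if_pos ⟨h, h'⟩
    have cx : c0 x = .inr (LB x) := if_neg fun h => h.2 rfl
    have cB : ∀ d, ¬ pin G A d → c0 d = .inr (LB d) := fun d h => if_neg fun h' => h h'.1
    -- darts of B at a vertex different from t
    have cBs : ∀ d, pin G B d → d ≠ y → c0 d = .inr (LB d) := by
      intro d h h1
      by_cases h2 : d = x
      · rw [h2, cx]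
      · exact cB d (nA d h h2 h1)
    have gxs : (g x).fst = s := by rw [g1]
    have fyt : (f y).fst ≠ s := by rw [f1, hyf]; exact hne.symm
    have main : ∀ d, ρ (c0 (σ d.symm)) = ρ (c0 d) := by
      intro d
      by_cases hdx : d = x
      · rw [hdx, cx]
        show ρ (c0 (σ y)) = _
        have hys' : y.fst ≠ s := by rw [hyf]; exact hne.symm
        rw [σn y hys']
        by_cases h : g y = y
        · rw [h, cA _ (f3 y yA) (tx _ fyt), la', ρl, ← lb', h, ρy]
        · have h1 : g y ≠ x := tx _ (by rw [g1]; exact hys')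
          have h2 := nA _ (g3 y yB) h1 h
          rw [f2 _ h2, cB _ h2, lb']
      by_cases hdy : d = y
      · rw [hdy, hys, σs x hxf, cA y yA hxy.symm]
        by_cases h : f x = x
        · rw [h, cBs _ (g3 x xB) (sy _ gxs), lb, ρy, ρl, ← la, h]
        · have h1 : f x ≠ y := sy _ (by rw [f1])
          rw [g2 _ (nB _ (f3 x xA) h h1), cA _ (f3 x xA) h, la]
      have e1 : d.symm ≠ x := fun h => hdy (by rw [hy, ← h, SimpleGraph.Dart.symm_symm])
      have e2 : d.symm ≠ y := fun h => hdx (by rw [← hys, ← h, SimpleGraph.Dart.symm_symm])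
      by_cases hdA : pin G A d
      · have heA := pin_symm hdA
        rw [cA d hdA hdx]
        by_cases hs : d.symm.fst = s
        · rw [σs _ hs]
          by_cases h : f d.symm = x
          · have h1 : LA d = LA x := by rw [← f5 d hdA, h]
            rw [h, cBs _ (g3 x xB) (sy _ gxs), lb, ρy, h1, ρl]
          · have h1 : f d.symm ≠ y := sy _ (by rw [f1]; exact hs)
            rw [g2 _ (nB _ (f3 _ heA) h h1), cA _ (f3 _ heA) h, f5 d hdA]
        · rw [σn _ hs, g2 _ (nB _ heA e1 e2), cA _ (f3 _ heA) (tx _ (by rw [f1]; exact hs)),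
            f5 d hdA]
      · have hdB := (hAB d).resolve_left hdA
        have heB := pin_symm hdB
        have heA : ¬ pin G A d.symm := nA _ heB e1 e2
        rw [cB d hdA]
        by_cases hs : d.symm.fst = s
        · rw [σs _ hs, f2 _ heA, cBs _ (g3 _ heB) (sy _ (by rw [g1]; exact hs)), g5 d hdB]
        · rw [σn _ hs]
          by_cases h : g d.symm = y
          · have h1 : LB d = LB y := by rw [← g5 d hdB, h]
            rw [h, cA _ (f3 y yA) (tx _ fyt), la', h1, ρy, ρl]
          · have h1 : g d.symm ≠ x := tx _ (by rw [g1]; exact hs)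
            have h2 := nA _ (g3 _ heB) h1 h
            rw [f2 _ h2, cB _ h2, g5 d hdB]
    have hsurj : Function.Surjective fun d => ρ (c0 d) := by
      rintro (a | ⟨b, hb⟩)
      · obtain ⟨d, hd, rfl⟩ := f6 a
        by_cases h : d = x
        · refine ⟨f y, ?_⟩
          show ρ (c0 (f y)) = _
          rw [cA _ (f3 y yA) (tx _ fyt), la', ρl, h]
        · refine ⟨d, ?_⟩
          show ρ (c0 d) = _
          rw [cA d hd h, ρl]
      · obtain ⟨d, hd, rfl⟩ := g6 b
        have h : d ≠ y := fun h => hb (by rw [h])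
        refine ⟨d, ?_⟩
        show ρ (c0 d) = _
        rw [cBs d hd h]
        exact dif_neg hb
    set F' := Quotient (Equiv.Perm.SameCycle.setoid (faceNext σ)) with hF'
    let C : F' → FA ⊕ {q : FB // q ≠ LB y} := Quotient.lift (fun d => ρ (c0 d)) fun d d' h =>
      const_cycle (f := faceNext σ) (c := fun d => ρ (c0 d)) (fun z => main z) h
    have hC : Function.Surjective C := by
      intro q
      obtain ⟨d, hd⟩ := hsurj q
      exact ⟨Quotient.mk _ d, hd⟩
    have hcard : Nat.card (FA ⊕ {q : FB // q ≠ LB y}) ≤ Nat.card F' :=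
      Nat.card_le_card_of_surjective C hC
    have hopt : Nat.card FB = Nat.card {q : FB // q ≠ LB y} + 1 := by
      rw [← Nat.card_congr (Equiv.optionSubtypeNe (LB y)), Finite.card_option]
    rw [Nat.card_sum] at hcard
    -- counting
    have hV : Nat.card V + 2 = A.ncard + B.ncard := by
      have h1 := Set.ncard_union_add_ncard_inter A B
      rw [hU, hI, Set.ncard_univ, Set.ncard_pair hne] at h1
      exact h1
    have hD : Nat.card G.Dart + 2 = {d | pin G A d}.ncard + {d | pin G B d}.ncard := by
      have h1 := Set.ncard_union_add_ncard_inter {d | pin G A d} {d | pin G B d}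
      have h2 : {d | pin G A d} ∪ {d | pin G B d} = (Set.univ : Set G.Dart) :=
        Set.eq_univ_of_forall fun d => hAB d
      have h3 : {d | pin G A d} ∩ {d | pin G B d} = ({x, y} : Set G.Dart) := by
        ext d
        constructor
        · rintro ⟨h, h'⟩
          exact hboth d h h'
        · rintro (h | h)
          · rw [h]; exact ⟨xA, xB⟩
          · rw [h]; exact ⟨yA, yB⟩
      rw [h2, h3, Set.ncard_univ, Set.ncard_pair hxy] at h1
      exact h1
    have hE := card_dart_nat G
    omega

end Vale.Agent.P235.ST.H834
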